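import Vale.Agent.P011.H511.HasseApproxF

/-!
Norms near `1` are norms of elements near `1`, for cyclic extensions of prime degree `p` of global
function fields, `p` equal to the characteristic allowed (helper580, leaf (X) of row 10550).
-/

open Polynomial Module

set_option linter.unusedSectionVars false

namespace Vale.Agent.P011.H580

open Vale.Agent.P011.H738 Vale.Agent.P011.H271 Vale.Agent.P011.H271.S3 Vale.Agent.P011.H973.PF
open Vale.Agent.P011.H511.FF (exists_ub exists_lb abv_sum_lt pn rs pn_zero pn_succ' pn_ne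
  above_finite below_av av_lt_iff)

/-- A generator of a Galois group of prime order, with the norm as the product of the
conjugates. -/
structure CG (p : ℕ) {R M : Type} [Field R] [Field M] [Algebra R M] (σ : M ≃ₐ[R] M) : Prop where
  prime : p.Prime
  pow : σ ^ p = 1
  inj : ∀ i < p, ∀ j < p, σ ^ i = σ ^ j → i = j
  norm_eq : ∀ e : M, algebraMap R M (Algebra.norm R e) = ∏ i ∈ Finset.range p, (σ ^ i) e

/-- The letters of row 10550. -/
theorem CG.of_gen {p : ℕ} (hp : p.Prime) {k E : Type} [Field k] [Field E] [Algebra k E]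
    [FiniteDimensional k E] [IsGalois k E] (hdeg : finrank k E = p) (s : E ≃ₐ[k] E)
    (hs : ∀ t : E ≃ₐ[k] E, ∃ i, i < p ∧ t = s ^ i) : CG p s := by
  classical
  have hpf : Fact p.Prime := ⟨hp⟩
  have hcard : Nat.card (E ≃ₐ[k] E) = p := by rw [IsGalois.card_aut_eq_finrank, hdeg]
  have hs1 : s ≠ 1 := by
    intro h
    have h1 : ∀ t : E ≃ₐ[k] E, t = 1 := by
      intro t
      obtain ⟨i, -, hi⟩ := hs t
      rw [hi, h, one_pow]
    have h2 : Nat.card (E ≃ₐ[k] E) = 1 := by
      have : Subsingleton (E ≃ₐ[k] E) := ⟨fun a b => by rw [h1 a, h1 b]⟩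
      exact Nat.card_unique
    rw [hcard] at h2
    exact hp.one_lt.ne' h2
  have hσp : orderOf s = p := by
    have h1 : orderOf s ∣ p := hcard ▸ orderOf_dvd_natCard s
    rcases (Nat.dvd_prime hp).mp h1 with h | h
    · exact absurd (orderOf_eq_one_iff.mp h) hs1
    · exact h
  have hall : ∀ x : E ≃ₐ[k] E, x ∈ Subgroup.zpowers s := fun x =>
    mem_zpowers_of_prime_card hcard hs1
  refine ⟨hp, ?_, ?_, fun e => ?_⟩
  · rw [← hσp]
    exact pow_orderOf_eq_one s
  · intro i hi j hj hij
    exact pow_injOn_Iio_orderOf (by rw [hσp]; exact hi) (by rw [hσp]; exact hj) hij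
  · rw [Algebra.norm_eq_prod_automorphisms, ← IsCyclic.image_range_orderOf hall, hσp,
      Finset.prod_image]
    intro i hi j hj hij
    rw [Finset.coe_range, Set.mem_Iio] at hi hj
    exact pow_injOn_Iio_orderOf (by rw [hσp]; exact hi) (by rw [hσp]; exact hj) hij

section cyc

variable {p : ℕ} {R M : Type} [Field R] [Field M] [Algebra R M] {σ : M ≃ₐ[R] M}

theorem rs_rel (Q : CG p σ) (e c : M) :
    e * σ (rs p σ e c) = rs p σ e c + (algebraMap R M (Algebra.norm R e) - 1) * c := by
  have h1 : e * σ (rs p σ e c) = ∑ i ∈ Finset.range p, pn σ e (i + 1) * (σ ^ (i + 1)) c := by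
    rw [rs, map_sum, Finset.mul_sum]
    refine Finset.sum_congr rfl fun i _ => ?_
    rw [map_mul, ← mul_assoc, pn_succ', pow_succ']
    rfl
  have h2 := Finset.sum_range_succ' (fun i => pn σ e i * (σ ^ i) c) p
  have h3 := Finset.sum_range_succ (fun i => pn σ e i * (σ ^ i) c) p
  rw [h3] at h2
  have h4 : pn σ e p = algebraMap R M (Algebra.norm R e) := (Q.norm_eq e).symm
  rw [h1, h4.symm]
  have h5 : (σ ^ 0) c = c := rfl
  have h5' : (σ ^ p) c = c := by rw [Q.pow]; rfl
  rw [pn_zero, h5, h5'] at h2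
  have h6 : rs p σ e c = ∑ x ∈ Finset.range p, pn σ e x * (σ ^ x) c := rfl
  rw [← h6] at h2
  linear_combination -h2

/-- Independence of the automorphisms, as a finite duality relation. -/
theorem exists_dual (Q : CG p σ) : ∃ (s : Finset M) (b : M → M), (∀ a ∈ s, b a ≠ 0) ∧
    ∀ i < p, ∑ a ∈ s, b a * (σ ^ i) a = if i = 0 then 1 else 0 := by
  classical
  set v : M → (Fin p → M) := fun a i => (σ ^ (i : ℕ)) a with hv
  have htop : Submodule.span M (Set.range v) = ⊤ := by
    by_contra hne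
    obtain ⟨f, hf0, hf⟩ := Submodule.exists_le_ker_of_lt_top _ (lt_top_iff_ne_top.mpr hne)
    apply hf0
    have hli : LinearIndependent M (fun i : Fin p => fun a : M => (σ ^ (i : ℕ)) a) := by
      have h1 := (linearIndependent_monoidHom M M).comp
        (fun i : Fin p => ((σ ^ (i : ℕ) : M ≃ₐ[R] M) : M →* M)) (by
          intro i j hij
          apply Fin.ext
          refine Q.inj _ i.2 _ j.2 ?_
          ext a
          exact DFunLike.congr_fun hij a)
      exact h1
    have hz : ∀ i : Fin p, f (Pi.single i 1) = 0 := by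
      rw [Fintype.linearIndependent_iff] at hli
      refine hli (fun i => f (Pi.single i 1)) ?_
      funext a
      have h1 : f (v a) = 0 := by
        have := hf (Submodule.subset_span ⟨a, rfl⟩)
        exact this
      have h2 : v a = ∑ i : Fin p, v a i • (Pi.single i (1 : M) : Fin p → M) := by
        funext j
        rw [Finset.sum_apply]
        simp [Pi.single_apply]
      rw [h2, map_sum] at h1
      rw [Finset.sum_apply, Pi.zero_apply, ← h1]
      refine Finset.sum_congr rfl fun i _ => ?_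
      rw [Pi.smul_apply, smul_eq_mul, map_smul, smul_eq_mul, mul_comm]
    apply LinearMap.pi_ext'
    intro i
    ext
    simpa using hz i
  have hmem : (fun i : Fin p => if (i : ℕ) = 0 then (1 : M) else 0) ∈
      Submodule.span M (Set.range v) := by rw [htop]; trivial
  rw [Finsupp.mem_span_range_iff_exists_finsupp] at hmem
  obtain ⟨c, hc⟩ := hmem
  refine ⟨c.support, c, fun a ha => Finsupp.mem_support_iff.mp ha, fun i hi => ?_⟩
  have h1 := congrFun hc ⟨i, hi⟩
  rw [Finsupp.sum, Finset.sum_apply] at h1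
  exact h1

/-- Some element of a finite set has a large resolvent, uniformly in `e`. -/
theorem exists_big_rs (Q : CG p σ) (w : Place M) : ∃ B : ℝ, 1 ≤ B ∧ ∀ e : M,
    ∃ a : M, a ≠ 0 ∧ w.abv a ≤ B * w.abv (rs p σ e a) := by
  classical
  obtain ⟨s, b, hb, hsum⟩ := exists_dual Q
  obtain ⟨B0, hB0, hB⟩ := exists_ub s fun a => w.abv (b a) * w.abv a
  refine ⟨max 1 B0, le_max_left _ _, fun e => ?_⟩
  by_contra hcon
  push Not at hcon
  have h1 : ∀ a ∈ s, w.abv (b a * rs p σ e a) < 1 := by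
    intro a ha
    by_cases ha0 : a = 0
    · subst ha0
      have h2 : rs p σ e 0 = 0 := by
        rw [rs]
        refine Finset.sum_eq_zero fun i _ => ?_
        rw [map_zero, mul_zero]
      rw [h2, mul_zero, map_zero]
      exact one_pos
    · have h2 := hcon a ha0
      have h3 : 0 < w.abv (b a) := w.abv.pos (hb a ha)
      have h4 : B0 * w.abv (rs p σ e a) < w.abv a :=
        (mul_le_mul_of_nonneg_right (le_max_right 1 B0) (w.abv.nonneg _)).trans_lt h2
      have h5 := hB a ha
      rw [map_mul]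
      have h6 : B0 * (w.abv (b a) * w.abv (rs p σ e a)) < B0 * 1 := by
        calc B0 * (w.abv (b a) * w.abv (rs p σ e a))
            = w.abv (b a) * (B0 * w.abv (rs p σ e a)) := by ring
          _ < w.abv (b a) * w.abv a := mul_lt_mul_of_pos_left h4 h3
          _ ≤ B0 * 1 := by rw [mul_one]; exact h5
      exact lt_of_mul_lt_mul_left h6 hB0.le
  have h2 : ∑ a ∈ s, b a * rs p σ e a = 1 := by
    have h3 : ∀ a ∈ s, b a * rs p σ e a =
        ∑ i ∈ Finset.range p, pn σ e i * (b a * (σ ^ i) a) := by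
      intro a _
      rw [rs, Finset.mul_sum]
      refine Finset.sum_congr rfl fun i _ => ?_
      ring
    rw [Finset.sum_congr rfl h3, Finset.sum_comm]
    have h4 : ∀ i ∈ Finset.range p, ∑ a ∈ s, pn σ e i * (b a * (σ ^ i) a) =
        if i = 0 then 1 else 0 := by
      intro i hi
      rw [← Finset.mul_sum, hsum i (Finset.mem_range.mp hi)]
      split_ifs with h
      · rw [h, pn_zero, mul_one]
      · rw [mul_zero]
    rw [Finset.sum_congr rfl h4, Finset.sum_ite_eq' (Finset.range p) 0,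
      if_pos (Finset.mem_range.mpr Q.prime.pos)]
  have h3 := abv_sum_lt w s (fun a => b a * rs p σ e a) one_pos h1
  rw [h2, map_one] at h3
  exact lt_irrefl _ h3

theorem sig_pow_mod (Q : CG p σ) (m : ℕ) : σ ^ m = σ ^ (m % p) := by
  conv_lhs => rw [← Nat.div_add_mod m p, pow_add, pow_mul, Q.pow, one_pow, one_mul]

/-- The Galois group is transitive on the places above a place. -/
theorem transitive [GFF M] (Q : CG p σ) {v : Place R} {w0 w : Place M} (h0 : Av' w0 v)
    (hw : Av' w v) : ∃ i : ℕ, ∀ z, w.abv z = w0.abv ((σ ^ i) z) := by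
  classical
  by_contra hcon
  push Not at hcon
  have hne : ∀ i j : ℕ, conjP (σ ^ i) w ≠ conjP (σ ^ j) w0 := by
    intro i j hij
    obtain ⟨z, hz⟩ := hcon (j + i * (p - 1))
    apply hz
    have h1 : ∀ y, w.abv ((σ ^ i) y) = w0.abv ((σ ^ j) y) := fun y => by
      rw [← conjP_abv, hij, conjP_abv]
    have h2 := h1 ((σ ^ (i * (p - 1))) z)
    rw [← AlgEquiv.mul_apply, ← AlgEquiv.mul_apply, ← pow_add, ← pow_add] at h2
    have h3 : i + i * (p - 1) = p * i := by
      obtain ⟨q, hq⟩ : ∃ q, p = q + 1 := ⟨p - 1, (Nat.succ_pred_eq_of_pos Q.prime.pos).symm⟩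
      rw [hq, Nat.add_sub_cancel]
      ring
    rw [h3, pow_mul, Q.pow, one_pow] at h2
    exact h2
  set T0 := (Finset.range p).image fun i => conjP (σ ^ i) w0 with hT0
  set T1 := (Finset.range p).image fun i => conjP (σ ^ i) w with hT1
  obtain ⟨x, hx⟩ := weakP (T0 ∪ T1) (fun u => if u ∈ T0 then (1 : M) else 0) one_pos
  have hx0 : ∀ i ∈ Finset.range p, w0.abv ((σ ^ i) x) = 1 := by
    intro i hi
    have hi' : conjP (σ ^ i) w0 ∈ T0 := Finset.mem_image_of_mem (fun i => conjP (σ ^ i) w0) hi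
    have h1 := hx _ (Finset.mem_union_left _ hi')
    rw [if_pos hi'] at h1
    rw [← conjP_abv, abv_eq_of_sub_lt (y := 1) _ (by rwa [map_one]), map_one]
  have hx1 : ∀ i ∈ Finset.range p, w.abv ((σ ^ i) x) < 1 := by
    intro i hi
    have hi' : conjP (σ ^ i) w ∈ T1 := Finset.mem_image_of_mem (fun i => conjP (σ ^ i) w) hi
    have h1 := hx _ (Finset.mem_union_right _ hi')
    rw [if_neg, sub_zero] at h1
    · exact h1
    · intro h
      obtain ⟨j, -, hj⟩ := Finset.mem_image.mp h
      exact hne i j hj.symm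
  have h1 : w0.abv (algebraMap R M (Algebra.norm R x)) = 1 := by
    rw [Q.norm_eq, map_prod, Finset.prod_congr rfl hx0, Finset.prod_const_one]
  have h2 : w.abv (algebraMap R M (Algebra.norm R x)) < 1 := by
    rw [Q.norm_eq, map_prod]
    obtain ⟨q, hq⟩ : ∃ q, p = q + 1 := ⟨p - 1, (Nat.succ_pred_eq_of_pos Q.prime.pos).symm⟩
    rw [hq, Finset.prod_range_succ']
    refine mul_lt_one_of_nonneg_of_lt_one_right ?_ (w.abv.nonneg _)
      (hx1 0 (Finset.mem_range.mpr Q.prime.pos))
    refine Finset.prod_le_one (fun i _ => w.abv.nonneg _) fun i hi => ?_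
    refine (hx1 (i + 1) ?_).le
    rw [Finset.mem_range] at hi ⊢
    omega
  rw [h0.eq_one] at h1
  rw [hw.lt_one, h1] at h2
  exact lt_irrefl _ h2

theorem fix_of_pow (Q : CG p σ) (w : Place M) {n : ℕ} (hn : ¬ p ∣ n)
    (h : ∀ z, w.abv ((σ ^ n) z) = w.abv z) (z : M) : w.abv (σ z) = w.abv z := by
  have h1 : ∀ (m : ℕ) (z : M), w.abv (((σ ^ n) ^ m) z) = w.abv z := by
    intro m
    induction m with
    | zero => intro z; rfl
    | succ m ih =>
      intro z
      rw [pow_succ', AlgEquiv.mul_apply, h, ih]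
  obtain ⟨m, hm⟩ : ∃ m : ℕ, n * m % p = 1 % p := by
    have hcop : Nat.Coprime n p := ((Nat.Prime.coprime_iff_not_dvd Q.prime).mpr hn).symm
    obtain ⟨m, -, hm⟩ := Nat.exists_mul_mod_eq_one_of_coprime hcop Q.prime.one_lt
    exact ⟨m, by rw [hm, Nat.mod_eq_of_lt Q.prime.one_lt]⟩
  have h2 : (σ ^ n) ^ m = σ := by
    rw [← pow_mul, sig_pow_mod Q, hm, ← sig_pow_mod Q, pow_one]
  have h3 := h1 m z
  rwa [h2] at h3

/-- The local form of the element `c`, with a constant which does not depend on `e`. -/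
theorem local_res [GFF M] (Q : CG p σ) {v : Place R} {w0 : Place M} (h0 : Av' w0 v) :
    ∃ B : ℝ, 1 ≤ B ∧ ∀ {e : M}, e ≠ 0 → ∃ (t : M) (γ : ℝ), 0 < γ ∧
      ∀ c : M, w0.abv (c - t) < γ →
      (∀ w : Place M, Av' w v → w ≠ w0 → w.abv c < γ) →
      ∀ w : Place M, Av' w v → w.abv c ≤ B * w.abv (rs p σ e c) ∧ rs p σ e c ≠ 0 := by
  classical
  by_cases hfix : ∀ z, w0.abv (σ z) = w0.abv z
  · -- only one place
    have hfix' : ∀ i : ℕ, ∀ z, w0.abv ((σ ^ i) z) = w0.abv z := by
      intro i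
      induction i with
      | zero => intro z; rfl
      | succ i ih =>
        intro z
        rw [pow_succ', AlgEquiv.mul_apply, hfix, ih]
    have hone : ∀ w : Place M, Av' w v → w = w0 := by
      intro w hw
      obtain ⟨i, hi⟩ := transitive Q h0 hw
      exact place_ext' fun z => by rw [hi z, hfix' i z]
    obtain ⟨B, hB1, hB⟩ := exists_big_rs Q w0
    have hB0 : 0 < B := one_pos.trans_le hB1
    refine ⟨B, hB1, fun {e} he => ?_⟩
    obtain ⟨a, ha0, ha⟩ := hB e
    set r := w0.abv (rs p σ e a) with hr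
    have hθj : 0 < w0.abv a := w0.abv.pos ha0
    have hr0 : 0 < r := pos_of_mul_pos_right (hθj.trans_le ha) hB0.le
    obtain ⟨m, hm0, hm⟩ := exists_ub (Finset.range p) fun i => w0.abv (pn σ e i)
    refine ⟨a, min (w0.abv a) (r / m), lt_min hθj (div_pos hr0 hm0),
      fun c hc _ w hw => ?_⟩
    obtain rfl := hone w hw
    have hc1 : w.abv c = w.abv a := abv_eq_of_sub_lt w (hc.trans_le (min_le_left _ _))
    have hc2 : w.abv (rs p σ e c - rs p σ e a) < r := by
      have e1 : rs p σ e c - rs p σ e a =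
          ∑ i ∈ Finset.range p, pn σ e i * (σ ^ i) (c - a) := by
        rw [rs, rs, ← Finset.sum_sub_distrib]
        refine Finset.sum_congr rfl fun i _ => ?_
        rw [map_sub, mul_sub]
      rw [e1]
      refine abv_sum_lt w _ _ hr0 fun i hi => ?_
      rw [map_mul, hfix' i]
      have h1 : w.abv (c - a) < r / m := hc.trans_le (min_le_right _ _)
      rw [lt_div_iff₀ hm0] at h1
      refine lt_of_le_of_lt ?_ h1
      rw [mul_comm]
      exact mul_le_mul_of_nonneg_left (hm i hi) (w.abv.nonneg _)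
    have hc3 : w.abv (rs p σ e c) = r := abv_eq_of_sub_lt w hc2
    refine ⟨?_, fun h => ?_⟩
    · rw [hc3, hc1]
      exact ha
    · rw [h, map_zero] at hc3
      exact hr0.ne hc3
  · -- the split case
    refine ⟨1, le_rfl, fun {e} he => ?_⟩
    simp only [one_mul]
    obtain ⟨γ1, hγ1, hm⟩ := exists_ub ((Finset.range p) ×ˢ (Finset.range p))
      fun x => w0.abv ((σ ^ x.1) (pn σ e x.2))
    obtain ⟨γ2, hγ2, hl⟩ := exists_lb ((Finset.range p) ×ˢ (Finset.range p))
      (fun x => w0.abv ((σ ^ x.1) (pn σ e x.2))) (by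
        intro x _
        refine w0.abv.pos ?_
        exact (_root_.map_ne_zero (σ ^ x.1 : M ≃ₐ[R] M)).mpr (pn_ne he _))
    refine ⟨1, min 1 (min γ2 (γ2 / γ1)), lt_min one_pos (lt_min hγ2 (div_pos hγ2 hγ1)),
      fun c hc hcw w hw => ?_⟩
    set γ := min 1 (min γ2 (γ2 / γ1)) with hγdef
    have hγ1' : γ ≤ 1 := min_le_left _ _
    have hγ2' : γ ≤ γ2 := (min_le_right _ _).trans (min_le_left _ _)
    have hγ3' : γ ≤ γ2 / γ1 := (min_le_right _ _).trans (min_le_right _ _)
    have hc1 : w0.abv c = 1 := by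
      rw [abv_eq_of_sub_lt (y := 1) w0 (by rw [map_one]; exact hc.trans_le hγ1'), map_one]
    have hcn : ∀ n : ℕ, ¬ p ∣ n → w0.abv ((σ ^ n) c) < γ := by
      intro n hn
      rw [← conjP_abv]
      refine hcw _ ((conjP_av _ _ _).mpr h0) fun h => ?_
      exact hfix fun z => fix_of_pow Q w0 hn (fun z => by rw [← conjP_abv, h]) z
    obtain ⟨m0, hm0⟩ := transitive Q h0 hw
    obtain ⟨m, hmp, hmw⟩ : ∃ m, m < p ∧ ∀ z, w.abv z = w0.abv ((σ ^ m) z) := by
      refine ⟨m0 % p, Nat.mod_lt _ Q.prime.pos, fun z => ?_⟩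
      rw [hm0 z, ← sig_pow_mod Q]
    obtain ⟨l, hlp, hml⟩ : ∃ l, l < p ∧ p ∣ m + l := by
      rcases Nat.eq_zero_or_pos m with rfl | hm1
      · exact ⟨0, Q.prime.pos, by simp⟩
      · exact ⟨p - m, by omega, by rw [Nat.add_sub_cancel' hmp.le]⟩
    have hdiv : ∀ n, p ∣ n → (σ ^ n) c = c := by
      rintro _ ⟨q, rfl⟩
      rw [pow_mul, Q.pow, one_pow]
      rfl
    have hmain : w.abv (rs p σ e c) = w0.abv ((σ ^ m) (pn σ e l)) := by
      have e1 : ∀ i, (σ ^ m) (pn σ e i * (σ ^ i) c) = (σ ^ m) (pn σ e i) * (σ ^ (m + i)) c := by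
        intro i
        rw [map_mul, pow_add]
        rfl
      have h1 : w0.abv ((σ ^ m) (pn σ e l * (σ ^ l) c)) =
          w0.abv ((σ ^ m) (pn σ e l)) := by
        rw [e1, hdiv _ hml, map_mul, hc1, mul_one]
      have hne : 0 < w0.abv ((σ ^ m) (pn σ e l)) := by
        refine w0.abv.pos ?_
        exact (_root_.map_ne_zero (σ ^ m : M ≃ₐ[R] M)).mpr (pn_ne he _)
      rw [← h1]
      rw [hmw]
      refine abv_eq_of_sub_lt w0 ?_
      rw [rs, map_sum, ← Finset.add_sum_erase _ _ (Finset.mem_range.mpr hlp), add_sub_cancel_left]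
      rw [h1]
      refine abv_sum_lt w0 _ _ hne fun i hi => ?_
      obtain ⟨hil, hip⟩ := Finset.mem_erase.mp hi
      rw [Finset.mem_range] at hip
      have h2 : ¬ p ∣ m + i := by
        intro hd
        have h3 : p ∣ (m + l) - (m + i) := Nat.dvd_sub hml hd
        have h4 : p ∣ (m + i) - (m + l) := Nat.dvd_sub hd hml
        rcases Nat.lt_or_gt_of_ne hil with h5 | h5
        · have := Nat.le_of_dvd (by omega) h3
          omega
        · have := Nat.le_of_dvd (by omega) h4
          omega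
      rw [e1, map_mul]
      have h3 := hcn _ h2
      have h4 : w0.abv ((σ ^ m) (pn σ e i)) ≤ γ1 :=
        hm (m, i) (Finset.mk_mem_product (Finset.mem_range.mpr hmp) (Finset.mem_range.mpr hip))
      have h5 : γ2 ≤ w0.abv ((σ ^ m) (pn σ e l)) :=
        hl (m, l) (Finset.mk_mem_product (Finset.mem_range.mpr hmp) (Finset.mem_range.mpr hlp))
      have h6 := h3.trans_le hγ3'
      rw [lt_div_iff₀ hγ1] at h6
      refine lt_of_le_of_lt ?_ (h6.trans_le h5)
      rw [mul_comm]
      exact mul_le_mul_of_nonneg_left h4 (w0.abv.nonneg _)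
    have hne : 0 < w0.abv ((σ ^ m) (pn σ e l)) := by
      refine w0.abv.pos ?_
      exact (_root_.map_ne_zero (σ ^ m : M ≃ₐ[R] M)).mpr (pn_ne he _)
    refine ⟨?_, fun h => ?_⟩
    · rw [hmain]
      rcases Nat.eq_zero_or_pos m with rfl | hm1
      · have hl0 : l = 0 := by
          rw [zero_add] at hml
          exact Nat.eq_zero_of_dvd_of_lt hml hlp
        subst hl0
        have h1 : w.abv c = 1 := by
          rw [hmw, ← hc1]
          rfl
        rw [h1, pn_zero, map_one, map_one]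
      · have h1 : ¬ p ∣ m := fun h => absurd (Nat.le_of_dvd hm1 h) (not_le.mpr hmp)
        have h2 := hcn m h1
        rw [← hmw] at h2
        have h5 : γ2 ≤ w0.abv ((σ ^ m) (pn σ e l)) :=
          hl (m, l) (Finset.mk_mem_product (Finset.mem_range.mpr hmp) (Finset.mem_range.mpr hlp))
        exact (h2.le.trans hγ2').trans h5
    · rw [h, map_zero] at hmain
      exact hne.ne hmain

/-- **Norms near `1` are norms of elements near `1`**, with a linear estimate. -/
theorem cg_approx [GFF R] [GFF M] [FiniteDimensional R M] (Q : CG p σ)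
    {S : Set (Place R)} (hS : S.Finite) : ∃ B : ℝ, 1 ≤ B ∧ ∀ {e : M}, e ≠ 0 →
    ∃ e1 : M, Algebra.norm R e1 = Algebra.norm R e ∧ ∀ v ∈ S, ∀ w : Place M, Av' w v →
      w.abv (e1 - 1) ≤ B * w.abv (algebraMap R M (Algebra.norm R e - 1)) := by
  classical
  choose w0 hw0 using fun v : Place R => exists_aboveF (E := M) v
  choose B hB1 hloc using fun v : Place R => local_res Q (hw0 v)
  obtain ⟨B', hB', hBl⟩ := exists_ub hS.toFinset B
  refine ⟨max 1 B', le_max_left _ _, fun {e} he => ?_⟩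
  choose t γ hγ hloc' using fun v : Place R => hloc v he
  choose be hbe using fun w : Place M => below_av (k := R) w
  obtain ⟨γ', hγ', hγl⟩ := exists_lb hS.toFinset γ fun v _ => hγ v
  obtain ⟨c, hc⟩ := weakP (above_finite (K := M) hS).toFinset
    (fun w => if w = w0 (be w) then t (be w) else 0) hγ'
  have hbe' : ∀ {v : Place R} {w : Place M}, Av' w v → be w = v := fun h => (hbe _).unique h
  have hkey : ∀ v ∈ S, ∀ w : Place M, Av' w v →
      w.abv c ≤ B v * w.abv (rs p σ e c) ∧ rs p σ e c ≠ 0 := by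
    intro v hv
    have hγv : γ' ≤ γ v := hγl v (hS.mem_toFinset.mpr hv)
    refine hloc' v c ?_ ?_
    · have h1 := hc (w0 v) ((above_finite (K := M) hS).mem_toFinset.mpr ⟨v, hv, hw0 v⟩)
      rw [hbe' (hw0 v), if_pos rfl] at h1
      exact h1.trans_le hγv
    · intro w hw hne
      have h1 := hc w ((above_finite (K := M) hS).mem_toFinset.mpr ⟨v, hv, hw⟩)
      rw [hbe' hw, if_neg hne, sub_zero] at h1
      exact h1.trans_le hγv
  by_cases hf : rs p σ e c = 0
  · refine ⟨e, rfl, fun v hv w hw => ?_⟩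
    exact absurd hf (hkey v hv w hw).2
  · refine ⟨e * σ (rs p σ e c) / rs p σ e c, ?_, fun v hv w hw => ?_⟩
    · have h1 : Algebra.norm R (rs p σ e c) ≠ 0 := Algebra.norm_ne_zero_iff.mpr hf
      have h2 : Algebra.norm R (e * σ (rs p σ e c) / rs p σ e c) *
          Algebra.norm R (rs p σ e c) = Algebra.norm R e * Algebra.norm R (rs p σ e c) := by
        rw [← map_mul, div_mul_cancel₀ _ hf, map_mul, Algebra.norm_eq_of_algEquiv]
      exact mul_right_cancel₀ h1 h2
    · have hwf : 0 < w.abv (rs p σ e c) := w.abv.pos hf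
      have e1 : e * σ (rs p σ e c) / rs p σ e c - 1 =
          algebraMap R M (Algebra.norm R e - 1) * c / rs p σ e c := by
        rw [rs_rel Q, map_sub, map_one]
        field_simp
        ring
      have hBv : B v ≤ max 1 B' :=
        (hBl v (hS.mem_toFinset.mpr hv)).trans (le_max_right _ _)
      have h1 : w.abv c ≤ max 1 B' * w.abv (rs p σ e c) :=
        (hkey v hv w hw).1.trans (mul_le_mul_of_nonneg_right hBv (w.abv.nonneg _))
      rw [e1, map_div₀, map_mul, div_le_iff₀ hwf]
      calc w.abv (algebraMap R M (Algebra.norm R e - 1)) * w.abv c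
          ≤ w.abv (algebraMap R M (Algebra.norm R e - 1)) *
            (max 1 B' * w.abv (rs p σ e c)) := mul_le_mul_of_nonneg_left h1 (w.abv.nonneg _)
        _ = _ := by ring

end cyc

/-- A ball of `w` contains a ball of the place below. -/
theorem exists_ball {F E : Type} [Field F] [Field E] [Algebra F E] {W : Place E} {v : Place F}
    (h : Av' W v) {η : ℝ} (hη : 0 < η) :
    ∃ δ : ℝ, 0 < δ ∧ ∀ x : F, v.abv x < δ → W.abv (algebraMap F E x) < η := by
  obtain ⟨z, hz0, hz⟩ := exists_ml v (-1)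
  have hz1 : v.abv z < 1 := by
    rw [← ml_neg_iff v hz0, hz]
    norm_num
  have hW1 : W.abv (algebraMap F E z) < 1 := (h.lt_one z).mpr hz1
  obtain ⟨n, hn⟩ := exists_pow_lt_of_lt_one hη hW1
  refine ⟨v.abv (z ^ n), v.abv.pos (pow_ne_zero _ hz0), fun x hx => ?_⟩
  refine ((av_lt_iff h x (z ^ n)).mpr hx).trans ?_
  rw [map_pow, map_pow]
  exact hn

/-- **(X) of row 10550**: norms near `1` are norms of elements near `1`, every prime `p`. -/
theorem norm_near {p : ℕ} (hp : p.Prime) {k E : Type} [Field k] [GFF k] [Field E] [GFF E]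
    [Algebra k E] [FiniteDimensional k E] [IsGalois k E] (hdeg : finrank k E = p)
    (s : E ≃ₐ[k] E) (hs : ∀ t : E ≃ₐ[k] E, ∃ i, i < p ∧ t = s ^ i) (S : Finset (Place k))
    {ε : ℝ} (hε : 0 < ε) :
    ∃ δ : ℝ, 0 < δ ∧ ∀ e0 : Eˣ, (∀ v ∈ S, v.abv (Algebra.norm k (e0 : E) - 1) < δ) →
      ∃ e1 : Eˣ, Algebra.norm k (e1 : E) = Algebra.norm k (e0 : E) ∧
        ∀ v ∈ S, ∀ w : Place E, Av' w v → w.abv ((e1 : E) - 1) < ε := by
  classical
  have Q := CG.of_gen hp hdeg s hs
  have hfin := above_finite (K := E) S.finite_toSet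
  obtain ⟨B, hB1, hB⟩ := cg_approx Q S.finite_toSet
  have hB0 : 0 < B := one_pos.trans_le hB1
  choose be hbe using fun w : Place E => below_av (k := k) w
  choose d hd0 hd using fun w : Place E => exists_ball (hbe w) (div_pos hε hB0)
  obtain ⟨δ, hδ, hδl⟩ := exists_lb hfin.toFinset d fun w _ => hd0 w
  refine ⟨δ, hδ, fun e0 he0 => ?_⟩
  obtain ⟨e1, he1, hcl⟩ := hB (e := (e0 : E)) e0.ne_zero
  have hne : e1 ≠ 0 := by
    rintro rfl
    rw [Algebra.norm_zero] at he1
    exact Algebra.norm_ne_zero_iff.mpr e0.ne_zero he1.symm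
  refine ⟨Units.mk0 e1 hne, he1, fun v hv w hw => ?_⟩
  have hwv : be w = v := (hbe w).unique hw
  have h1 : w.abv (algebraMap k E (Algebra.norm k (e0 : E) - 1)) < ε / B := by
    refine hd w _ ?_
    rw [hwv]
    exact (he0 v hv).trans_le (hδl w (hfin.mem_toFinset.mpr ⟨v, hv, hw⟩))
  refine (hcl v hv w hw).trans_lt ?_
  rwa [lt_div_iff₀' hB0] at h1

end Vale.Agent.P011.H580
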